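import Vale.Agent.N352.F.Key
import Vale.Agent.N352.F.Rs
import Vale.Agent.N352.E.TopI
import Vale.Agent.N352.DefG

/-!
# N352, block G: energy bounds
-/

set_option linter.all false

open Filter Topology

namespace Vale.Agent.N352.F

open Vale.Agent.P352 Vale.Agent.P352.GF Vale.Agent.P352.BW Vale.Agent.P352.H246
open Vale.Agent.P352.H496 Vale.Agent.P352.H755 Vale.Agent.P352.H15
open Vale.Agent.P352X Vale.Agent.P352L Vale.Agent.P352R
open E E.Mn
open UniformSpace (Completion)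

noncomputable section

universe u v

variable {D : Type u} [NormedAddCommGroup D] [InnerProductSpace ℂ D]
  {D' : Type v} [NormedAddCommGroup D'] [InnerProductSpace ℂ D']

section key

variable (c : Cf D) {S : Ix → Ix → Fld D} (k : Core c S) {R : Theory D'} {i : D →ₗᵢ[ℂ] D'}
  {G' : D' → D'} {T' S' : Ix → Ix → Fld D'} (h : P.Sect c.Q R i) (g : P.Gr R G')
  (d1 : R.IsStress S') (d2 : Dn.Same R T' S') (c2 : ∀ m n, P.Xt i (S m n) (S' m n))
include k h g d1 d2 c2

open Fss.G in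
/-- **a theory that contains the relatively local scalars is conformally invariant** -/
theorem keyE (hX : Max c.Q c.Γ (N1 D) R i) : ∃ t, Conf R G' T' t := by
  obtain ⟨x, rfl, rfl, ⟨E, P, G1, e, L, a1, -, a4, -, a5, -⟩, Z, z2, z1, z3⟩ := k
  have hl := x.hl
  obtain ⟨B, b1, b2⟩ := hX E P G1 e L (Pf.ext_of a1 (afw1 P)) a4
  have b2 : ∀ f, IsTest f → ((B f R.vac : D') : Completion D') = jc i (x.l f) := fun f hf => by
    rw [b2 f hf, a5 f hf, jc_map]
  obtain ⟨b3, b4⟩ := scal_sect h d1 c2 hl.trace (fun s M a f hs hM hf => by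
    have k : ((s ^ 2 : ℝ) : ℂ) ≠ 0 := Complex.ofReal_ne_zero.2 (by positivity)
    rw [show P352R.P.Ue x.Q s M a _ = _ from (Ug_apply _ hs hM _ _).symm,
      Sq.pot (c := x.toCf) hl a hs hM hf,
      ← Complex.coe_smul, smul_smul, Complex.ofReal_inv, mul_inv_cancel₀ k, one_smul]) b1 b2
  suffices k : Conf R G' S' (improve S' B) from
    ⟨_, k.form, impr_same d2 k.impr, k.act, k.cfs, k.desc⟩
  refine Pf.core (Br.gr.1 g) d1 b3 b4 fun F w hF' => ?_
  obtain ⟨y, y1, y2⟩ := imp_mem (R := R) (S := S') (L := B)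
    (Completion.toComplL (𝕜 := ℂ) (E := D')).toLinearMap (Z.map (jc i).toLinearMap)
    (fun m n f hf => ⟨_, z2 m n f hf, (jc_coe _).trans <| by rw [c2 m n f _ hf, h.vac]; rfl⟩)
    (fun f hf => ⟨_, z1 f hf, (b2 f hf).symm⟩) hF'
  have y2 : ((smt (improve S' B) F R.vac : D') : Completion D') = jc i y := y2.symm
  have m := z3 y y1 (ContinuousLinearMap.adjoint (jc i) (w : Completion D'))
  have o : jc i x.toCf.Om = (R.vac : Completion D') := jc_om h
  rw [ContinuousLinearMap.adjoint_inner_right, ← jc_inner (i := i), ← y2, o, Completion.inner_coe,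
    Completion.inner_coe] at m
  refine m.congr' (eventually_nhdsWithin_of_forall fun r hr => ?_)
  obtain ⟨p1, p2⟩ := CA.lsc_pos hr
  obtain ⟨z, k⟩ := ug_sur x.toCf p1 p2 0 y
  show inner ℂ y (P352R.P.Ue _ _ _ _ _) = inner ℂ _ (R.U _ _ _ w)
  rw [← Completion.inner_coe (smt _ _ _), y2, ← ue_coe p1 p2, ← k, ue_inner p1 p2, jc_ue h p1 p2,
    ue_inner p1 p2, ContinuousLinearMap.adjoint_inner_right]

end key

variable {Q : Theory D} {G : D → D} {T : Ix → Ix → Fld D} {A : (V → V) → D → D}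

open Fss.G in
/-- the stress tensor of dimension four -/
theorem fourE (b : Di.Hb Q G T A) (r : Di.Reg1 Q G T A) {R : Theory D'} {i : D →ₗᵢ[ℂ] D'}
    {G' : D' → D'} {T' : Ix → Ix → Fld D'} (h : P.Sect Q R i) (g : P.Gr R G')
    (hT' : P.Stress0 R T') (hP : Dn.PGen R T') (hx : ∀ m n, P.Xt i (T m n) (T' m n)) :
    ∃ S S', Q.IsStress S ∧ Core (Tp.cf b.toGe) S ∧ R.IsStress S' ∧
      Dn.Same R T' S' ∧ ∀ m n, P.Xt i (S m n) (S' m n) := by
  obtain ⟨F, C, hC, c4, s, -, k⟩ := Ti.sec b r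
  have r' := m1_gr (Br.gr.1 g)
  choose C' c1 c2 using fun m n => Cw.scl_ext (Br.sect.1 h) (m1_gr (Tp.cf b.toGe).hN.toGr) r'
    (b.stress.bose m n) (hT'.bose m n) (hx m n) (hC m n)
  obtain ⟨d1, d2⟩ :=
    fss0 r' (fun s hs => h.cov s _ 0 hs H496.isLor_one) (Br.stress0.1 hT') hP c1 c4
  exact ⟨_, _, s, k, d1, same_of g hT'.bose d1.bose hP d2, fun m n => c2 m n _⟩

variable {h : Ok Q} {G0 A0} (g : Df.Ge (rs Q h) G0 A0)
include g

theorem rs_der (m : Ix) (v : N352.cy Q) : HasDerivAt (fun t : ℝ => Q.U 1 GF.one (bas m t) (io Q v))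
    (io Q (Df.Dv (rs Q h) m v)) 0 := by
  have := ((io Q).toContinuousLinearMap.restrictScalars ℝ).hasFDerivAt.comp_hasDerivAt (0 : ℝ)
    ((wb_row (Tp.cf g)).der m v)
  exact this.congr_of_eventuallyEq (.of_forall fun t => (rs_U (h := h) one_pos lor1 _ v).symm)

theorem rs_dv (m : Ix) (v : N352.cy Q) : io Q (Df.Dv (rs Q h) m v) = Dn.Dv Q m (io Q v) :=
  (rs_der g m v).deriv.symm

theorem rs_en (k : ℕ) (v : N352.cy Q) : Df.en (rs Q h) k v = Dn.en Q k (io Q v) := by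
  induction k generalizing v with
  | zero => rfl
  | succ k e =>
    show Df.en _ k v + ∑ m, Df.en _ k (Df.Dv _ m v) = Dn.en Q k _ + ∑ m, Dn.en Q k (Dn.Dv Q m _)
    simp only [e, rs_dv g]

theorem rs_ebd (e : Dn.EBd Q) : Df.EBd (rs Q h) := by
  rintro C ⟨B, b, x⟩
  refine (e B b).imp fun k p f hf => (p f hf).imp fun c q v => ?_
  rw [rs_en g, ← (io Q).norm_map, x f v hf.1]
  exact q _ v.2

theorem rs_fbt (b : ∀ m n, Q.fld (T m n)) (e : Dn.FBT Q T) :
    Di.FBT (rs Q h) fun m n => rf Q (T m n) := fun m n f hf => (e m n f hf).imp fun c q v => by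
  rw [← (io Q).inner_map_map, ← (io Q).inner_map_map v, rs_dv g, rf_xt (b m n) f v hf.1,
    ← (io Q).norm_map]
  exact q _ v.2

omit g in
theorem rs_sl (b : ∀ m n, Q.fld (T m n)) (t : ∀ m n, P.IsAdj (T m n) (T m n)) (e : Dn.SL Q T) :
    Di.SL (rs Q h) fun m n => rf Q (T m n) := by
  refine ⟨fun a a' m n f p q r hf e' => ?_⟩
  obtain ⟨M, u, u'⟩ := e.1 a a' m n f p q r hf e'
  have x := rf_xt (b m n)
  refine ⟨pv (je Q).conjStarAlgEquiv M, ⟨rf Q (T m n) f, fun v z => ?_, fun Y hY v z => ?_⟩,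
    fun B k hB hk => ?_⟩
  · simpa only [e'] using xadj (t m n) x x f v z hf.1
  · have := u' _ ((mem_pv' _ _).1 hY) v z v.2 z.2
    rw [← show (rf Q _ f v : D) = T m n f v from x f v hf.1,
      ← show (rf Q _ f z : D) = T m n f z from x f z hf.1] at this
    simpa only [← je_coe, je_cj, LinearIsometryEquiv.inner_map_map] using this
  · obtain ⟨B', -, ad⟩ := (rs Q h).adj B hB
    refine ⟨_, fun v z => ad k v z hk.1, fun Y hY v z => ?_⟩
    rw [VonNeumannAlgebra.commutant_commutant] at hY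
    exact rs_rst.wk (u _ ((mem_pv _ _).1 hY)) B B' k v z hB ad hk (cy.2 rs_cy v)
      (cy.2 rs_cy z)

end

end Vale.Agent.N352.F
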