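import Vale.Agent.N352.F.Rl
import Vale.Agent.N352.F.Nt

/-!
# N352, block G: local extensions are local relative to the net
-/

set_option linter.all false

open Filter Topology

namespace Vale.Agent.N352.F

open Vale.Agent.P352 Vale.Agent.P352.GF Vale.Agent.P352.BW
open Vale.Agent.P352X Vale.Agent.P352X.EB E P352R P352R.Tw Rn P352W.Net
open UniformSpace (Completion)

universe u

variable {D : Type u} [NormedAddCommGroup D] [InnerProductSpace ℂ D] {Q : Theory D} {G : D → D}
  {A : (V → V) → D → D} {Γ : Completion D →L[ℂ] Completion D}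
  {N : Set V → VonNeumannAlgebra (Completion D)}

/-- the space-like complement of an open set is closed -/
theorem cl_cc {O W : Set V} (w : IsOpen W) (s : Dn.Spc O W) : closure O ⊆ H496.cc W :=
  fun x hx y hy => by
  have le : ∀ y ∈ W, GF.mdot (y - x) (y - x) ≤ 0 := fun y hy =>
    closure_minimal (s := O) (t := {x | GF.mdot (y - x) (y - x) ≤ 0}) (fun z hz => by
      have := (s z hz y hy).le
      simp only [GF.mdot, Pi.sub_apply, Set.mem_setOf_eq] at this ⊢
      exact (Finset.sum_congr rfl fun m _ => by ring).trans_le this)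
      (isClosed_le (by fun_prop) continuous_const) hx
  have ev : ∀ᶠ t in 𝓝 (0 : ℝ), y + bas o t ∈ W := by
    refine (Continuous.tendsto' (f := fun t : ℝ => y + bas o t) ?_ 0 y ?_).eventually (w.mem_nhds hy)
    · refine continuous_const.add (continuous_pi fun n => ?_)
      simp only [bas]
      split_ifs <;> fun_prop
    · ext n
      simp [bas]
  obtain ⟨ε, e, h⟩ := Metric.eventually_nhds_iff.1 ev
  have a := le _ (h (y := ε / 2) (by rw [Real.dist_eq, sub_zero, abs_of_pos (half_pos e)]; linarith))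
  have b := le _ (h (y := -(ε / 2)) (by
    rw [Real.dist_eq, sub_zero, abs_neg, abs_of_pos (half_pos e)]; linarith))
  simp only [GF.mdot, Fin.sum_univ_four, eta, bas, o, Pi.sub_apply, Pi.add_apply] at a b ⊢
  simp only [Fin.isValue, Fin.reduceEq, if_true, if_false, one_ne_zero] at a b ⊢
  nlinarith [mul_pos e e]

variable (Γ N) in
/-- the even parts and the twisted odd parts of the operators of the net `N` commute with the
algebras of `N'` in space-like separated open regions -/
def Dl (N' : Set V → VonNeumannAlgebra (Completion D)) : Prop :=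
  ∀ O W, Dn.Reg O → IsOpen W → Dn.Spc O W → ∀ X ∈ N O,
    X + Γ * X * Γ ∈ (N' W).commutant ∧ (X - Γ * X * Γ) * Γ ∈ (N' W).commutant

/-- **relatively local nets give local nets**, which are local relative to the given net -/
theorem net_of' (g : GI.Ge Q G A) (m : P.MfA Q) (y : GI.Cy Q) (h : Dn.Net Q G Γ N)
    (r : Dn.Rel Q Γ N) : ∃ N', P352R.G.LNg Q G A Γ N' ∧ Dl Γ N N' := by
  refine ⟨_, Br.lng.2 (lng (rn g y h r) (Br.mfa.1 m)), fun O W o w s X hX => ?_⟩
  have g2 : Γ * Γ = 1 := SGx.g2 (cr g h)
  have k : ∀ X, kt (cr g h) * X * star (kt (cr g h)) = (1 / 2 : ℂ) • (X + Γ * X * Γ) +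
      (-1 * Complex.I / 2 : ℂ) • ((X - Γ * X * Γ) * Γ) := fun X => by
    have := kz_conj (SGx.g2 (cr g h)) (e := -1) (by norm_num) X
    rwa [neg_neg, ← kz_star' (SGx.gs _)] at this
  have e : Γ * (Γ * X * Γ) * Γ = X := by
    rw [← mul_assoc, ← mul_assoc, g2, one_mul, mul_assoc, g2, mul_one]
  have z := h.gam O o X hX
  refine ⟨Sx.vn ⟨O, o, cl_cc w s, _, add_mem hX z, ?_⟩, Sx.vn ⟨O, o, cl_cc w s,
    Complex.I • (X - Γ * X * Γ), (N O).toStarSubalgebra.smul_mem (sub_mem hX z) _, ?_⟩⟩
  · rw [k, mul_add, add_mul, e]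
    simp only [add_comm (Γ * X * Γ) X, sub_self, zero_mul]
    module
  · have e' : Γ * (X - Γ * X * Γ) * Γ = -(X - Γ * X * Γ) := by rw [mul_sub, sub_mul, e, neg_sub]
    generalize X - Γ * X * Γ = Y at e' ⊢
    rw [k, mul_smul_comm, smul_mul_assoc, e', ← smul_add, ← smul_sub, add_neg_cancel,
      sub_neg_eq_add, smul_mul_assoc, add_mul]
    match_scalars
    linear_combination (-1 : ℂ) * Complex.I_mul_I

/-- the wedges are open -/
theorem wdg_open (a b y : V) : IsOpen (P.Wdg a b y) := by
  simp only [P.Wdg, GF.mdot, Set.setOf_and]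
  exact (isOpen_lt (by fun_prop) continuous_const).inter (isOpen_lt continuous_const (by fun_prop))

variable {D' : Type*} [NormedAddCommGroup D'] [InnerProductSpace ℂ D']

/-- the operator `Y` commutes weakly with the fields of `R` smeared in `O` -/
def Wq (R : Theory D') (k : D' → Completion D) (O : Set V) (Y : Completion D →L[ℂ] Completion D) :
    Prop :=
  ∀ B B' f (v w : D'), R.fld B → Dn.IsAdj B B' → Dn.In O f →
    inner ℂ (k (B' (bar f) w)) (Y (k v)) = inner ℂ (k w) (Y (k (B f v)))

variable (Γ N) in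
/-- the fields of `R` are local relative to the net `N` -/
def Rw (R : Theory D') (k : D' → Completion D) : Prop :=
  ∀ a b y O, P.IsNull a → P.IsNull b → GF.mdot a b = 1 → Dn.Reg O →
    Dn.Spc O (P.Wdg a b y) → ∀ X ∈ N O, Wq R k (P.Wdg a b y) (X + Γ * X * Γ) ∧
      Wq R k (P.Wdg a b y) ((X - Γ * X * Γ) * Γ)

/-- **transport**: a local extension of the restricted theory, affiliated to a net that is local
relative to the pulled back net, is local relative to the given net -/
theorem rw_of {N0} (d : Dl (pg Q Γ) (pb Q N) N0) {E : Submodule ℂ (Completion (N352.cy Q))}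
    {R : Theory E} (k : P352R.G.AfW N0 R (↑)) :
    Rw Γ N R ((je Q).toLinearIsometry.comp E.subtypeₗᵢ) := fun a b y O p q r o s X hX => by
  obtain ⟨X, rfl⟩ := p_sur (je Q).conjStarAlgEquiv X
  have l := d O _ o (wdg_open a b y) s X ((mem_pv _ _).2 hX)
  have w : ∀ Y ∈ (N0 (P.Wdg a b y)).commutant, Wq R ((je Q).toLinearIsometry.comp E.subtypeₗᵢ)
      (P.Wdg a b y) ((je Q).conjStarAlgEquiv Y) := fun Y hY B B' f v w hB ad hf => by
    have := k a b y B B' f p q r hB ad hf Y hY v w
    show inner ℂ (je Q _) ((je Q).conjStarAlgEquiv Y (je Q _)) =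
      inner ℂ (je Q _) ((je Q).conjStarAlgEquiv Y (je Q _))
    rw [je_cj, je_cj, LinearIsometryEquiv.inner_map_map, LinearIsometryEquiv.inner_map_map]
    exact this
  exact ⟨by simpa only [p_mul, p_add, cj_pg] using w _ l.1,
    by simpa only [p_mul, p_sub, cj_pg] using w _ l.2⟩

end Vale.Agent.N352.F
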