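import Vale.Agent.N352.G.En

/-!
# N352, block G: restriction of a subtheory
-/

set_option linter.all false

open Filter Topology

namespace Vale.Agent.N352.F

open P352.GF P352R P352R.P
open UniformSpace (Completion)

noncomputable section

variable {D : Type*} [NormedAddCommGroup D] [InnerProductSpace ℂ D] {Q R : Theory D} {G : D → D}
  {B : Fld D}

open Classical in
/-- restriction of a field, zero for functions that are not test functions -/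
def cl (Q : Theory D) (B : Fld D) : Fld (N352.cy Q) := fun f => if IsTest f then rf Q B f else 0

theorem cl_xt (hB : Q.fld B) : Xt (io Q) (cl Q B) B := fun f v hf => by
  rw [cl, if_pos hf, rf_xt hB f v hf]

theorem cl_ext {C : Fld (N352.cy Q)} (x : Xt (io Q) C B) (hB : Q.fld B)
    (z : ∀ f, ¬IsTest f → C f = 0) : cl Q B = C := funext fun f => by
  by_cases hf : IsTest f
  · exact funext fun v => (io Q).injective ((cl_xt hB f v hf).trans (x f v hf).symm)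
  · rw [z f hf, cl, if_neg hf]

theorem cl_0 {f} (hf : ¬IsTest f) : cl Q B f = 0 := if_neg hf

variable (n : IsEnl R Q) (h : Ok Q)

/-- **the restriction of a subtheory** -/
def sb : Theory (N352.cy Q) :=
  have k : ∀ {C}, (∃ B, R.fld B ∧ cl Q B = C) → (rs Q h).fld C := by
    rintro _ ⟨B, b, rfl⟩
    exact ⟨B, n.fld B b, cl_xt (n.fld B b)⟩
  { rs Q h with
    fld := fun C => ∃ B, R.fld B ∧ cl Q B = C
    bose := fun C => ∃ B, R.bose B ∧ cl Q B = C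
    cyclic := fun S a b => (io Q).isometry.isEmbedding.isInducing.dense_iff.2 fun v =>
      closure_mono (by rintro _ ⟨w, c, rfl⟩; exact ⟨w, c, rfl⟩)
        (R.cyclic (S.map (N352.cy Q).subtype) ⟨_, a, n.vac⟩ (by
          rintro B f _ hB hf ⟨w, c, rfl⟩
          exact ⟨_, b _ f w ⟨B, hB, rfl⟩ hf c, cl_xt (n.fld B hB) f w hf⟩) _)
    lin := fun A f g c v a => (rs Q h).lin A f g c v (k a)
    cont := fun A v a => (rs Q h).cont A v (k a)
    adj := by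
      rintro _ ⟨B, b, rfl⟩
      obtain ⟨B', b', ad⟩ := R.adj B b
      exact ⟨_, ⟨B', b', rfl⟩, xadj ad (cl_xt (n.fld B b)) (cl_xt (n.fld B' b'))⟩
    bose_fld := fun _ ⟨B, b, x⟩ => ⟨B, R.bose_fld B b, x⟩
    loc := by
      rintro _ C f g v ⟨B, b, rfl⟩ c
      exact (rs Q h).loc _ C f g v ⟨B, n.bose B b, cl_xt (n.fld B (R.bose_fld B b))⟩ (k c)
    transl := fun A a f v b => (rs Q h).transl A a f v (k b) }

variable {n h}

theorem sb_enl : IsEnl (sb n h) (rs Q h) := ⟨rfl, rfl, by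
  rintro _ ⟨B, b, rfl⟩
  exact ⟨B, n.fld B b, cl_xt (n.fld B b)⟩, by
  rintro _ ⟨B, b, rfl⟩
  exact ⟨B, n.bose B b, cl_xt (n.fld B (R.bose_fld B b))⟩⟩

theorem sb_U {s L} (hs : 0 < s) (hL : IsLor L) (a : V) (v : N352.cy Q) :
    io Q ((sb n h).U s L a v) = R.U s L a (io Q v) := (rs_U (h := h) hs hL a v).trans (by rw [n.U])

theorem sb_gr (g : Gr Q G) (e : G Q.vac = Q.vac) (g' : Gr R G) : Gr (sb n h) (rg Q G) := by
  have k := rs_gr (h := h) g e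
  have r := rg_coe g e
  refine ⟨k.inv, k.herm, fun C f v c => k.bose C f v (sb_enl.bose C c), ?_,
    fun C C' f f' v c c' => k.anti C C' f f' v ⟨sb_enl.fld C c.1, c.2⟩ ⟨sb_enl.fld C' c'.1, c'.2⟩,
    k.GU, k.mul⟩
  rintro _ ⟨B, b, rfl⟩
  obtain ⟨E, E', a, a', c⟩ := g'.split B b
  have x := cl_xt (n.fld _ a'.1)
  exact ⟨_, _, ⟨E, a, rfl⟩, ⟨⟨E', a'.1, rfl⟩, fun f v hf => (io Q).injective (by
    rw [map_neg, r, x _ _ hf, x _ _ hf, r, a'.2 f _ hf])⟩, fun f v hf => (io Q).injective (by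
    rw [map_add, x _ _ hf, cl_xt (n.fld B b) _ _ hf, cl_xt (n.fld E (R.bose_fld E a)) _ _ hf,
      c f _ hf])⟩

theorem sb_mfa (m : MfA R) : MfA (sb n h) := by
  rintro _ ⟨B, b, rfl⟩
  obtain ⟨k, E, p, q⟩ := m B b
  have t : ∀ i, R.fld (E i) := fun i => have ⟨_, _, a, c, d⟩ := p i; d ▸ c.1 a
  refine ⟨k, fun i => cl Q (E i), fun i => ?_, fun f v hf => (io Q).injective ?_⟩
  · obtain ⟨k, Φ, a, c, d⟩ := p i
    refine ⟨k, fun b => cl Q (Φ b), a, ⟨fun b => ⟨_, c.1 b, rfl⟩, fun a L f v hL hf =>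
      (io Q).injective ?_⟩, congrArg _ d⟩
    simp only [map_sum, map_smul, sb_U one_pos hL, cl_xt (n.fld _ (c.1 _)) _ _ hf,
      cl_xt (n.fld _ (c.1 _)) _ _ (t_sim one_pos hL 0 hf), c.2 a L f _ hL hf]
  · simp only [map_sum, cl_xt (n.fld _ b) _ _ hf, cl_xt (n.fld _ (t _)) _ _ hf, q f _ hf]

theorem sb_pick {C} (c : (sb n h).fld C) :
    ∃ B, R.fld B ∧ cl Q B = C ∧ ((sb n h).bose C → R.bose B) := by
  by_cases k : (sb n h).bose C
  · exact k.imp fun B k => ⟨R.bose_fld B k.1, k.2, fun _ => k.1⟩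
  · exact c.imp fun B a => ⟨a.1, a.2, fun a => (k a).elim⟩

theorem sb_fsl (l : FSL R) : FSL (sb n h) := fun C c => by
  obtain ⟨B, b, rfl, o⟩ := sb_pick c
  obtain ⟨F, E, p, q⟩ := l B b
  refine ⟨F, fun i => cl Q (E i), fun i => ⟨⟨_, (p i).1, rfl⟩, fun k => ⟨_, (p i).2 (o k), rfl⟩⟩,
    fun s f v hs hf => (io Q).injective ?_⟩
  simp only [map_sum, map_smul, sb_U hs lor1, cl_xt (n.fld _ b) _ _ hf,
    cl_xt (n.fld _ (p _).1) _ _ (t_sim hs lor1 0 hf), q s f _ hs hf]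

theorem cl_span {S : Set (Fld D)} (k : ∀ B ∈ Submodule.span ℂ S, Q.fld B) (C) :
    C ∈ Submodule.span ℂ (cl Q '' S) ↔ ∃ B ∈ Submodule.span ℂ S, cl Q B = C := by
  let M : Submodule.span ℂ S →ₗ[ℂ] Fld (N352.cy Q) := ⟨⟨fun B => cl Q B, fun B B' =>
    cl_ext (fun f v hf => by
      rw [Pi.add_apply, Pi.add_apply, map_add, cl_xt (k _ B.2) _ _ hf, cl_xt (k _ B'.2) _ _ hf]
      rfl) (k _ (B + B').2) fun f hf => by rw [Pi.add_apply, cl_0 hf, cl_0 hf, add_zero]⟩,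
    fun z B => cl_ext (fun f v hf => by
      rw [Pi.smul_apply, Pi.smul_apply, map_smul, cl_xt (k _ B.2) _ _ hf]
      rfl) (k _ (z • B).2) fun f hf => (congrArg (z • ·) (cl_0 hf)).trans (smul_zero z)⟩
  have e : cl Q '' S = M '' ((↑) ⁻¹' S) := Set.ext fun C =>
    ⟨fun ⟨B, b, c⟩ => ⟨⟨B, Submodule.subset_span b⟩, b, c⟩, fun ⟨B, b, c⟩ => ⟨B, b, c⟩⟩
  rw [e, Submodule.span_image, Submodule.span_span_coe_preimage]
  exact ⟨fun ⟨B, _, c⟩ => ⟨B, B.2, c⟩, fun ⟨B, b, c⟩ => ⟨⟨B, b⟩, trivial, c⟩⟩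

theorem sb_cnt (c : CntF R) : CntF (sb n h) := by
  obtain ⟨S, hS, e⟩ := c.cnt
  refine ⟨⟨_, hS.image (cl Q), fun C => ?_⟩, fun C k => ?_, fun s L C hs hL k => ?_⟩
  · rw [cl_span fun B b => n.fld B ((e B).2 b)]
    exact exists_congr fun B => and_congr_left' (e B)
  · obtain ⟨B, b, d⟩ := (cl_span (S := {B | R.bose B})
      (fun B b => n.fld B (R.bose_fld B (c.sub B b))) C).1 k
    exact ⟨B, c.sub B b, d⟩
  · obtain ⟨B, b, rfl, o⟩ := sb_pick k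
    obtain ⟨E, p, q, r⟩ := c.cov s L B hs hL b
    exact ⟨_, ⟨E, p, rfl⟩, fun k => ⟨E, q (o k), rfl⟩, fun f v hf => (io Q).injective (by
      rw [sb_U hs hL, cl_xt (n.fld _ b) _ _ (t_sim hs hL 0 hf), cl_xt (n.fld _ p) _ _ hf,
        sb_U hs hL, r f _ hf])⟩

theorem sb_flds (c : Dn.Flds R) : N352.Flds (sb n h) :=
  c.imp (fun c => sb_cnt (cntf c)) fun c => ⟨sb_mfa (mfa.1 c.1), sb_fsl (fsl.1 c.2)⟩

theorem sb_ana (a : Dn.Ana R) : GI.Ana (sb n h) := by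
  rintro _ C' f ⟨B, b, rfl⟩ ad hf
  obtain ⟨B', b', ad'⟩ := R.adj B b
  refine (a B B' f b ad' hf).imp fun c p k => le_of_eq_of_le ?_ (p k)
  rw [← (io Q).norm_map, ← n.vac]
  refine congrArg _ (Function.Semiconj.iterate_right (f := io Q) (fun w => ?_) k _)
  rw [map_add, cl_xt (n.fld _ b) _ _ hf.1, ← cl_xt (n.fld _ b') _ _ (t_bar hf.1)]
  refine congrArg (_ + io Q ·) (ext_inner_left ℂ fun z => ?_)
  rw [← ad _ _ _ hf.1, xadj ad' (cl_xt (n.fld _ b)) (cl_xt (n.fld _ b')) _ _ _ hf.1]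

theorem sb_leb {G0 A0} (g : Df.Ge (rs Q h) G0 A0) (a : Dn.LEB R Q) : P352R.G.LEB (sb n h) := by
  rintro _ f ⟨B, b, rfl⟩ hf
  refine (a B f b hf).imp fun c p v => ?_
  rw [← (io Q).norm_map, ← (io Q).norm_map v, ← (io Q).norm_map (P352R.G.Dv _ _ _),
    cl_xt (n.fld _ b) _ _ hf.1, show io Q (P352R.G.Dv (sb n h) o v) = _ from rs_dv g o v]
  exact p _ v.2

end

end Vale.Agent.N352.F
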