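import Vale.Agent.N352.G.Sb
import Vale.Agent.N352.G.Rw
import Vale.Agent.N352.F.Cn
import Vale.Agent.N352.F.Vf

/-!
# N352, block G: the theorem
-/

set_option linter.all false

open Filter Topology

namespace Vale.Agent.N352.Gz

open P352.GF P352R P352R.P F
open UniformSpace (Completion)

noncomputable section

universe u v

variable {D : Type u} {D' : Type v} [NormedAddCommGroup D] [InnerProductSpace ℂ D]
  [NormedAddCommGroup D'] [InnerProductSpace ℂ D'] {Q : Theory D} {G : D → D}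
  {T : Ix → Ix → Fld D} {A : (V → V) → D → D} {Γ : Completion D →L[ℂ] Completion D}

variable (D' Q Γ T) in
/-- the analytic results on the generated domain -/
def Kit (N : Set V → VonNeumannAlgebra (Completion D)) : Prop := ∀ (R : Theory D') i G' T',
  Sect Q R i → Gr R G' → Stress0 R T' → Dn.PGen R T' →
  (∀ m n, Xt i (T m n) (T' m n)) → ∃ S S', Q.IsStress S ∧ R.IsStress S' ∧ Dn.Same R T' S' ∧
    (∀ m n, Xt i (S m n) (S' m n)) ∧ (∃ (E : Submodule ℂ (Completion D)) (P : Theory E)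
      (G1 : E → E) (e : Fld D → Fld E) (t : Ix → Ix → Fld E), Ext Q Γ N P G1 e ∧ Desc P G1 t ∧
      ∀ R, IsEnl P R → Gr R G1 → Conf R G1 (fun m n => e (S m n)) t) ∧
    (Max Q Γ N R i → ∃ t, Conf R G' T' t)

theorem kitN {N} (n : P352R.G.LNg Q G A Γ N) (m : MfA Q) (l : FSL Q) (s : Stress0 Q T)
    (p : PCh Q T A) (k : Dn.IVac Q) : Kit D' Q T Γ N := fun R i G' T' a b c d e => by
  let x : P352X.EG.Cg D := ⟨Q, G, A, Γ, N, Br.lng.1 n⟩
  have m := Br.mfa.1 m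
  have s := Br.stress0.1 s
  obtain ⟨S, S', h1, h2, h3, -, h4, h5⟩ := four (U.rows D) x m l k s p a b c d e
  exact ⟨S, S', h1, h3, h4, h5, exten (U.rows D) x m l k h1 h2,
    key (U.rows D) x m l k s p a b c d e⟩

theorem kitE (g : GI.Ge Q G A) (x : ∀ v : D, Γ v = (G v : D)) (m : MfA Q) (l : FSL Q)
    (s : Stress0 Q T) (p : PCh Q T A) (k : Dn.IVac Q) (r : Di.Reg1 Q G T A) :
    Kit D' Q T Γ (E.Mn.N1 D) := fun R i G' T' a b c d e => by
  have v := Pf.cova (Br.gr.1 g.toGr) (Br.mfa.1 m) l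
  have h : Di.Hb Q G T A := ⟨Bg.ge.2 g, Bg.stress0.2 s, p, k, v,
    fun m n => Bg.fsl.2 l _ (Q.bose_fld _ (s.bose m n))⟩
  obtain rfl : (E.Tp.cf h.toGe).Γ = Γ := P352X.EG.SGx.dext fun v =>
    ((E.Tp.cf h.toGe).hN.ext v).trans (x v).symm
  obtain ⟨S, S', h1, h2, h3, h4, h5⟩ := fourE h r a b c d e
  obtain ⟨E, P, G1, e, t, a1, a2, a3⟩ := E.Mn.exten _ (E.cov0_of (c := E.Tp.cf h.toGe) v) h2
  exact ⟨S, S', h1, h3, h4, h5, ⟨E, P, G1, e, t, a1, a2 (Br.mfa.1 m) l, a3⟩,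
    keyE _ h2 a b h3 h4 h5⟩

theorem ext_congr {N} {E : Submodule ℂ (Completion D)} {P : Theory E} {G' e}
    (x : Ext Q Γ N P G' e) {B C : Fld D} (b : Q.fld B) (c : Q.fld C)
    (h : ∀ f v, IsTest f → B f v = C f v) {f : Fn} (hf : IsTest f) (v : E) : e B f v = e C f v := by
  obtain ⟨B', b', ad⟩ := Q.adj B b
  refine Subtype.ext (cyc_ext (Q := Q) fun w hw => ?_)
  obtain ⟨w, k⟩ := x.mem hw
  rw [← k, ← Submodule.coe_inner, ← Submodule.coe_inner, x.adj B B' b b' ad f v w hf,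
    x.adj C B' c b' (fun f v w hf => h f v hf ▸ ad f v w hf) f v w hf]

theorem conf_congr {S t : Ix → Ix → Fld D} (h : ∀ m n f v, IsTest f → T m n f v = S m n f v)
    (k : Conf Q G S t) : Conf Q G T t :=
  ⟨k.form, impr_same (fun F B f hF _ _ => (eventually_gt_atTop 0).mono fun r hr l n v => by
    have a := cut_test hF hr
    have b : ∀ l, IsTest (Dn.xg l (F r)) := fun l => P352X.Ap.sw_congr
      (P352X.Ap.sw_rmul (u := fun x => x l) (by fun_prop) a) fun _ => rfl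
    simp only [Dn.cm, h _ _ _ _ a, h _ _ _ _ (b _), and_self]) k.impr, k.act, k.cfs, k.desc⟩

variable {N : Set V → VonNeumannAlgebra (Completion D)}

theorem exn {h : Ok Q} {M} (r : Dn.Lnt Q G Γ N → Dl (pg Q Γ) (pb Q N) M)
    {E : Submodule ℂ (Completion (N352.cy Q))} {P : Theory E} {G' e}
    (x : Ext (rs Q h) (pg Q Γ) M P G' e) :
    Dn.Exn Q G Γ N P ((je Q).toLinearIsometry.comp E.subtypeₗᵢ) G' fun B => e (rf Q B) :=
  ⟨(rs_rst (h := h)).ext (fun _ => rf_xt) x, fun n a b y O p q s o u X m =>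
    (rw_of (r n) x.aff a b y O p q s o u X m).imp (⟨·⟩) (⟨·⟩)⟩

theorem maz {h : Ok Q} {M} (r : Dn.Lnt Q G Γ N → Dl (pg Q Γ) (pb Q N) M) {R : Theory D'} {i}
    (m : Dn.Maz Q G Γ N R i) : Max (rs Q h) (pg Q Γ) M R (i.comp (io Q)) := fun E S G' e L k l => by
  obtain ⟨B, a, b⟩ := m.max E S _ G' _ L (exn r k) l
  exact ⟨B, a, fun f hf => (b f hf).trans (jc_je _)⟩

variable (H : Dn.Hz Q G T Γ N)
include H

theorem prep : ∃ (h : Ok Q) (A : _), MfA Q ∧ FSL Q ∧ GI.Ge (rs Q h) (rg Q G) A := by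
  have g := gr.1 H.grading
  obtain ⟨m, l⟩ : MfA Q ∧ FSL Q := H.fields.elim (cnt_of g H.even
    (fun m n => Q.bose_fld _ (H.stress.bose m n)) H.poincare) fun k => ⟨mfa.1 k.1, fsl.1 k.2⟩
  obtain ⟨A, a⟩ := (GI.thm _).gen (rs Q (ok_of g m l)) _ (rs_gr g H.even) (rs_even g H.even) rs_cy
    (rs_mfa m) (rs_fsl l)
  exact ⟨_, A, m, l, a⟩

theorem pgx (v : N352.cy Q) : pg Q Γ v = (rg Q G v : N352.cy Q) := (je Q).injective (by
  rw [je_pg, je_coe, je_coe, H.ext]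
  exact congrArg _ (rg_coe (gr.1 H.grading) H.even v).symm)

theorem tf (m n : Ix) : Q.fld (T m n) := Q.bose_fld _ (H.stress.bose m n)

variable {h : Ok Q} {A' : (V → V) → N352.cy Q → N352.cy Q} (m : MfA Q) (l : FSL Q)
  (a : GI.Ge (rs Q h) (rg Q G) A')

theorem st : Stress0 (rs Q h) fun m n => rf Q (T m n) :=
  rs_st0 (h := h) (st0_of (gr.1 H.grading) H.stress H.poincare)

include m a

theorem pc : PCh (rs Q h) (fun m n => rf Q (T m n)) A' :=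
  pch_of a (rs_mfa (h := h) m) (st H).bose (rs_pgen (h := h) (tf H) H.poincare)

include l

theorem iv : Dn.IVac (rs Q h) := H.scale.elim (fun ⟨J, j⟩ => ivac_free a (rs_mfa (h := h) m)
  (rs_fsl (h := h) l) (st H).bose (pc H m a) (rs_vir (h := h) (tf H) j)) (rs_rst (h := h)).ivac

theorem kn {M} (n : P352R.G.LNg (rs Q h) (rg Q G) A' (pg Q Γ) M) :
    Kit D' (rs Q h) (fun m n => rf Q (T m n)) (pg Q Γ) M :=
  kitN n (rs_mfa (h := h) m) (rs_fsl (h := h) l) (st H) (pc H m a) (iv H m l a)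

theorem k1 (n : Dn.Lnt Q G Γ N) : ∃ M, Dl (pg Q Γ) (pb Q N) M ∧
    Kit D' (rs Q h) (fun m n => rf Q (T m n)) (pg Q Γ) M := by
  have g := gr.1 H.grading
  obtain ⟨M, n', r⟩ := net_of' a (rs_mfa (h := h) m) rs_cy ((rs_rst (h := h)).net
    (rg_coe g H.even) n.1) ((rs_rst (h := h)).rel (n.2.elim (rel_of_aff g n.1) id))
  exact ⟨M, r, kn H m l a n'⟩

theorem k2 (e : Dn.EBd Q) (r : Dn.FBT Q T ∨ Dn.SL Q T) :
    Kit D' (rs Q h) (fun m n => rf Q (T m n)) (pg Q Γ) (E.Mn.N1 _) :=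
  kitE a (pgx H) (rs_mfa (h := h) m) (rs_fsl (h := h) l) (st H) (pc H m a) (iv H m l a)
    ⟨rs_ebd (Bg.ge.2 a) e,
      r.imp (rs_fbt (Bg.ge.2 a) (tf H)) fun r => .inl (rs_sl (tf H) H.stress.herm r)⟩

theorem k3 {R : Theory D} (n : Dn.IsEnl R Q) (g' : Dn.Gr R G) (f : Dn.Flds R)
    (r : Dn.Ana R ∨ Dn.EBd Q ∧ Dn.LEB R Q) :
    ∃ M, Kit D' (rs Q h) (fun m n => rf Q (T m n)) (pg Q Γ) M := by
  have g := gr.1 H.grading
  obtain ⟨Γ', M, n'⟩ := nets (rs Q h) _ A' (.inr ⟨rs_mfa (h := h) m, rs_fsl (h := h) l⟩)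
    (.inr ⟨a, sb (enl.1 n) h, sb_enl, sb_gr g H.even (gr.1 g'), sb_flds f,
      r.imp (fun r => ⟨rs_cy, sb_ana r⟩) fun r =>
        ⟨Bg.ebd.1 (rs_ebd (Bg.ge.2 a) r.1), sb_leb (Bg.ge.2 a) r.2⟩⟩)
  obtain rfl : Γ' = pg Q Γ := P352X.EG.SGx.dext fun v => (n'.ext v).trans (pgx H v).symm
  exact ⟨M, kn H m l a n'⟩

omit m l a

theorem kit : MfA Q ∧ FSL Q ∧ ∃ (h : Ok Q) (M : _), (Dn.Lnt Q G Γ N → Dl (pg Q Γ) (pb Q N) M) ∧
    Kit D' (rs Q h) (fun m n => rf Q (T m n)) (pg Q Γ) M := by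
  obtain ⟨h, A, m, l, a⟩ := prep H
  refine ⟨m, l, h, ?_⟩
  by_cases n : Dn.Lnt Q G Γ N
  · exact (k1 H m l a n).imp fun _ k => ⟨fun _ => k.1, k.2⟩
  rcases H.regular with n' | ⟨e, r⟩ | ⟨R, u, g', f, r⟩
  exacts [(n n').elim, ⟨_, fun k => (n k).elim, k2 H m l a e r⟩,
    (k3 H m l a u g' f r).imp fun _ k => ⟨fun k => (n k).elim, k⟩]

theorem self (m : MfA Q) (l : FSL Q) : Dn.Over Q T Q .id G T :=
  ⟨⟨rfl, fun _ _ _ _ _ _ => rfl, Pf.cova (Br.gr.1 (gr.1 H.grading)) (Br.mfa.1 m) l, fun B C p q =>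
    ⟨B, C, p, q, fun _ _ _ => rfl, fun _ _ _ => rfl⟩⟩, H.grading, H.stress, H.poincare,
    fun _ _ _ _ _ => rfl⟩

theorem use {M} (k : Kit D' (rs Q h) (fun m n => rf Q (T m n)) (pg Q Γ) M) {R : Theory D'}
    {i G' T'} (o : Dn.Over Q T R i G' T') : ∃ S S', (rs Q h).IsStress S ∧ R.IsStress S' ∧
    Dn.Same R T' S' ∧ (∀ m n, Xt (i.comp (io Q)) (S m n) (S' m n)) ∧
    (∃ (E : Submodule ℂ (Completion (N352.cy Q))) (P : Theory E) (G1 : E → E) (e : _ → Fld E)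
      (t : Ix → Ix → Fld E), Ext (rs Q h) (pg Q Γ) M P G1 e ∧ Desc P G1 t ∧
      ∀ R, IsEnl P R → Gr R G1 → Conf R G1 (fun m n => e (S m n)) t) ∧
    (Max (rs Q h) (pg Q Γ) M R (i.comp (io Q)) → ∃ t, Conf R G' T' t) :=
  k R _ G' T' (rs_sect (sect.1 o.sect)) (gr.1 o.grading)
    (st0_of (gr.1 o.grading) o.stress o.poincare) o.poincare fun m n f v hf =>
      (congrArg i (rf_xt (tf H m n) f v hf)).trans (o.ext m n f _ hf)

theorem sup {R : Theory D'} {i G' T'} (o : Dn.Over Q T R i G' T')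
    (x : Dn.Maz Q G Γ N R i) : ∃ t, Dn.Conf R G' T' t := by
  obtain ⟨-, -, h, M, r, k⟩ := kit (D' := D') H
  obtain ⟨-, -, -, -, -, -, -, k⟩ := use H k o
  exact (k (maz r x)).imp fun _ => conf

omit H in
variable (D D') in
/-- **the theorem** -/
theorem thz : Dn.Thz D D' where
  conf Q G T Γ N H x := by
    obtain ⟨m, l, -⟩ := kit (D' := D) H
    exact (sup H (self H m l) x).imp fun t k => ⟨k, k.desc (mfa.2 m) (fsl.2 l)⟩
  sup Q G T Γ N R i G' T' H := sup H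
  ext Q G T Γ N H := by
    obtain ⟨m, l, h, M, z, k⟩ := kit (D' := D) H
    obtain ⟨S, S', a, b, c, d, ⟨E, P, G1, e, t, p, q, r⟩, -⟩ := use H k (self H m l)
    have s := fun m n => Q.bose_fld _ (b.bose m n)
    exact ⟨S', b, c, E, _, _, P, _, G1, _, t, exn z p, desc q,
      fun R u w => conf (conf_congr (fun m n f v hf => ext_congr p (rs_fld (s m n))
        ((rs Q h).bose_fld _ (a.bose m n)) (fun f v hf => (io Q).injective
          ((rf_xt (s m n) f v hf).trans (d m n f v hf).symm)) hf v) (r R (enl.1 u) (gr.1 w)))⟩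
  uni _ := Bg.ivac_of
  der Q G T Γ N m v H hv := by
    obtain ⟨h, A, -, -, a⟩ := prep H
    exact rs_dv (Bg.ge.2 a) m ⟨v, hv⟩ ▸ rs_der (Bg.ge.2 a) m ⟨v, hv⟩

end

end Vale.Agent.N352.Gz
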