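import Vale.Agent.N352.G.Top
import Vale.Agent.N352.F.Wt
import Vale.Agent.N352.F.Wv

/-!
# N352, block G: the witnesses
-/

set_option linter.all false

namespace Vale.Agent.N352.Gz

open P352.GF P352R P352R.P P352R.G F
open UniformSpace (Completion)

variable {D : Type*} [NormedAddCommGroup D] [InnerProductSpace ℂ D] {Q : Theory D}
  {T : Ix → Ix → Fld D}

theorem sl_of (t : ∀ m n, IsAdj (T m n) (T m n)) (e : Df.SL Q T) : Dn.SL Q T := by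
  refine ⟨fun a b m n f p q r hf e' => ?_⟩
  obtain ⟨M, ⟨X, x, u⟩, u'⟩ := e.1 a b m n f p q r hf e'
  refine ⟨M, fun Y hY B B' g v z hB ad hg _ _ => ?_, fun Y hY v z _ _ => ?_⟩
  · obtain ⟨X, x, u⟩ := u' B g hB hg
    rw [show B' (bar g) z = X z from ext_inner_left ℂ fun y => (ad g y z hg.1).symm.trans (x y z)]
    exact u Y (by rwa [VonNeumannAlgebra.commutant_commutant]) v z
  · have : T m n f z = X z := ext_inner_left ℂ fun y => by rw [← x, t m n f y z hf.1, e']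
    exact this ▸ u Y hY v z

theorem maz_of {G Γ N} (h : Dn.Max Q Γ Q .id) : Dn.Maz Q G Γ N Q .id :=
  ⟨fun E _ _ P k G' e L x => h.max E P k G' e L x.toExt⟩

open P352 P352R.Le P352R.L22 P352L.StA E in
/-- **the witness with a unique vacuum** -/
theorem wiz : ∃ (E : Type) (_ : NormedAddCommGroup E) (_ : InnerProductSpace ℂ E), Dn.Wiz E := by
  obtain ⟨A, N, ⟨a, b, -, -, n, u, x⟩, -, -, ⟨-, g, d⟩, ⟨B, l, m⟩, k⟩ := fr.topQ rec_fr
  obtain ⟨J, hJ⟩ := vir_fr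
  obtain ⟨N', n1, n2, n3⟩ := net_all (lng_of n g)
  have c : Dn.CntF fr.tq := ⟨cntF_tq.1, cntF_tq.2, cntF_tq.3, cts_of d⟩
  have r := (Br.lnm.1 n).toRep
  have e := En.W22.enb (A := A) ⟨r.mul, r.add, r.der⟩
  have r' : H15.Rep (hull fr.t0) A := ⟨r.mul, r.add, r.der⟩
  have ge : Df.Ge fr.tq id A := ⟨Bg.gr.2 g, ⟨d⟩, rfl, r.add⟩
  have s := Bg.stress0.2 a
  have eb := Bg.ebd.2 (H72.ebd r)
  have lb : Df.LBT fr.tq _ := fun m n => Sl.lb_wit r m n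
  refine ⟨_, _, _, fr.tq, hull fr.t0, _, N', J, B, ⟨gr.2 g, rfl, fun _ => rfl, stress a, pgen' d b,
    .inl ⟨J, hJ⟩, .inl c, .net ⟨n1, .inl n2⟩⟩, maz_of (max_of_rec' x _), u, hJ, c, ⟨n1, n2, n3⟩,
    ⟨fun C hC => (eb C hC).imp fun _ p f hf => (p f hf).imp fun _ q v _ => q v,
      fun m n f hf => (Fb.fb (c := Tp.cf ge) (fr.tq.bose_fld _ (s.bose m n)) (s.herm m n) (lb m n)
        f hf).imp fun _ q v _ => q v, sl_of a.herm (Tp.loc ge s eb (.inr (.inl lb)))⟩,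
    ⟨enl.2 e.sub, gr.2 (Br.gr.2 (Gl2.gr r' (fun _ b => b) (zero_mem _))),
      .inl ⟨e.cnt.1, e.cnt.2, e.cnt.3, cts_of (Q := fr.tq) d⟩, (Bz.anvR fr e).ana,
      fun C f hC hf => ?_⟩, l, m, k⟩
  obtain ⟨z, c, e⟩ := L22.bk r' (e.lin C f hC hf)
  refine ⟨z, fun v _ => (e v).trans (mul_le_mul_of_nonneg_left ?_ c)⟩
  rw [pow_one]
  exact norm_sub_le _ _

/-- **the witness with a degenerate vacuum** -/
theorem wizD : ∃ (E : Type) (_ : NormedAddCommGroup E) (_ : InnerProductSpace ℂ E), Dn.WizD E := by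
  obtain ⟨E, _, _, Q, T, N, h, k⟩ := witD
  exact ⟨E, _, _, Q, T, N, ⟨h.1, h.2, h.net.ext, h.3, h.4, h.5, h.6, .net ⟨h.7, h.8⟩⟩,
    maz_of k.1, k.2⟩

end Vale.Agent.N352.Gz
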